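import Vale.Agent.P039.Bn.H18.Rank

/-! A perfect matching whose edges are owned by different faces, two adjacent faces owning nothing:
the complement is one cycle. -/

namespace Vale.Agent.P039.Bn.H18

open Finset

variable {B W V : Type} (M : PMap B W V)

theorem z2_cases (a : ZMod 2) : a = 0 ∨ a = 1 := by revert a; decide

theorem z2_succ (a : ZMod 2) : a + 1 ≠ a := by revert a; decide

theorem z2_ne {a b c : ZMod 2} (h1 : a ≠ c) (h2 : b ≠ c) : a = b := by
  revert a b c; decide

/-- A function which does not change along the edges is constant. -/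
theorem const_of_edges (hM : M.Conn) (s : B → ZMod 2) (t : W → ZMod 2)
    (h : ∀ b j, s b = t (M.e j b)) (b b' : B) : s b = s b' := by
  have h1 : ∀ j b b', M.c j b = M.c j b' → s b = s b' := by
    intro j b b' hb
    have := M.exact j b b' hb
    induction this with
    | rel x y hxy => rw [h x (j + 2), h y (j + 1), hxy]
    | refl x => rfl
    | symm x y _ ih =>
      exact (ih (M.c_of_eqvGen (by assumption))).symm
    | trans x y z h1 h2 ih1 ih2 =>
      exact (ih1 (M.c_of_eqvGen h1)).trans (ih2 (M.c_of_eqvGen h2))
  have := hM b b'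
  induction this with
  | rel x y h => obtain ⟨i, hi⟩ := h; exact h1 i x y hi
  | refl x => rfl
  | symm x y _ ih => exact ih.symm
  | trans x y z _ _ ih1 ih2 => exact ih1.trans ih2

/-- Constant along all edges outside the matching. -/
def Cl (m : B → Fin 3) (s : B → ZMod 2) (t : W → ZMod 2) : Prop :=
  ∀ b j, j ≠ m b → s b = t (M.e j b)

variable [Fintype B] [DecidableEq B]

/-- the matching edges along which the function changes -/
def cross (m : B → Fin 3) (s : B → ZMod 2) (t : W → ZMod 2) : Finset B :=
  univ.filter fun b => s b ≠ t (M.e (m b) b)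

omit [DecidableEq B] in
theorem mem_cross {m : B → Fin 3} {s : B → ZMod 2} {t : W → ZMod 2} {b : B} :
    b ∈ cross M m s t ↔ s b ≠ t (M.e (m b) b) := by simp [cross]

omit [DecidableEq B] in
/-- Both parts of a minimal cut are connected. -/
theorem conn_of_min (hM : M.Conn) (m : B → Fin 3)
    (hm : Function.Bijective fun b => M.e (m b) b) (s : B → ZMod 2) (t : W → ZMod 2)
    (hst : Cl M m s t) (hnc : ∃ b b', s b ≠ s b')
    (hmin : ∀ s' t', Cl M m s' t' → (∃ b b', s' b ≠ s' b') →
      (cross M m s t).card ≤ (cross M m s' t').card)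
    (a : ZMod 2) (p : B → ZMod 2) (q : W → ZMod 2)
    (hpq : ∀ b, s b = a → ∀ j, t (M.e j b) = a → p b = q (M.e j b)) :
    (∀ b, s b = a → ∀ b', s b' = a → p b = p b') ∧
      (∀ b, s b = a → ∀ w, t w = a → p b = q w) ∧
        (∀ w, t w = a → ∀ w', t w' = a → q w = q w') := by
  classical
  have key : ∀ b, s b = a → ∀ b', s b' = a → p b = p b' := by
    intro b1 hb1 b2 hb2
    by_contra hne
    let S : ZMod 2 → B → ZMod 2 := fun x b => if s b = a ∧ p b = x then 1 else 0
    let T : ZMod 2 → W → ZMod 2 := fun x w => if t w = a ∧ q w = x then 1 else 0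
    have hval : ∀ x : ZMod 2, ∃ b, s b = a ∧ p b = x := by
      intro x
      by_cases h : p b1 = x
      · exact ⟨b1, hb1, h⟩
      · refine ⟨b2, hb2, ?_⟩
        exact z2_ne (c := p b1) (Ne.symm hne) (Ne.symm h)
    have hCl : ∀ x, Cl M m (S x) (T x) := by
      intro x b j hj
      have h1 := hst b j hj
      by_cases h : s b = a
      · have h2 := hpq b h j (h1 ▸ h)
        simp only [S, T, ← h1, h, h2]
      · simp only [S, T, ← h1, h, false_and, if_false]
    have hNc : ∀ x, ∃ b b', S x b ≠ S x b' := by
      intro x
      obtain ⟨b, hb, hx⟩ := hval x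
      obtain ⟨b', hb', hx'⟩ := hval (x + 1)
      refine ⟨b, b', ?_⟩
      have hx1 : x + 1 ≠ x := z2_succ x
      simp only [S, hb, hx, hb', hx', and_self, if_true, true_and, if_neg hx1]
      decide
    have hsub : ∀ x, cross M m (S x) (T x) ⊆ cross M m s t := by
      intro x b hb
      rw [mem_cross] at hb ⊢
      intro h
      apply hb
      by_cases h' : s b = a
      · have h2 := hpq b h' (m b) (h ▸ h')
        simp only [S, T, ← h, h', h2]
      · simp only [S, T, ← h, h', false_and, if_false]
    have hdisj : Disjoint (cross M m (S 0) (T 0)) (cross M m (S 1) (T 1)) := by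
      rw [Finset.disjoint_left]
      intro b h0 h1
      have hc := hsub 0 h0
      rw [mem_cross] at h0 h1 hc
      by_cases h' : s b = a
      · have ht : t (M.e (m b) b) ≠ a := fun h => hc (h'.trans h.symm)
        simp only [S, T, ht, h', true_and, false_and, if_false] at h0 h1
        rcases z2_cases (p b) with hp | hp
        · rw [hp] at h1
          simp at h1
        · rw [hp] at h0
          simp at h0
      · by_cases ht : t (M.e (m b) b) = a
        · simp only [S, T, ht, h', true_and, false_and, if_false] at h0 h1
          rcases z2_cases (q (M.e (m b) b)) with hp | hp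
          · rw [hp] at h1
            simp at h1
          · rw [hp] at h0
            simp at h0
        · exact hc (z2_ne h' ht)
    have h0 := hmin _ _ (hCl 0) (hNc 0)
    have h1 := hmin _ _ (hCl 1) (hNc 1)
    have h2 := Finset.card_le_card (Finset.union_subset (hsub 0) (hsub 1))
    rw [Finset.card_union_of_disjoint hdisj] at h2
    have h3 : (cross M m s t).card = 0 := by omega
    rw [Finset.card_eq_zero] at h3
    obtain ⟨b, b', hbb⟩ := hnc
    apply hbb
    apply const_of_edges M hM s t
    intro b j
    by_cases hj : j = m b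
    · rw [hj]
      by_contra h
      have := (mem_cross M (m := m) (s := s) (t := t)).2 h
      rw [h3] at this
      exact absurd this (Finset.notMem_empty _)
    · exact hst b j hj
  have hw : ∀ w, t w = a → ∃ b, s b = a ∧ p b = q w := by
    intro w hw
    obtain ⟨b0, hb0⟩ := hm.2 w
    obtain ⟨j, hj⟩ : ∃ j : Fin 3, j ≠ m b0 := ⟨m b0 + 1, fne1 _⟩
    refine ⟨(M.e j).symm w, ?_⟩
    have hjm : j ≠ m ((M.e j).symm w) := by
      intro h
      have h1 : M.e (m ((M.e j).symm w)) ((M.e j).symm w) = w := by
        rw [← h, Equiv.apply_symm_apply]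
      have h2 := hm.1 (a₁ := (M.e j).symm w) (a₂ := b0) (h1.trans hb0.symm)
      rw [h2] at h
      exact hj h
    have h1 := hst _ j hjm
    rw [Equiv.apply_symm_apply, hw] at h1
    refine ⟨h1, ?_⟩
    have := hpq _ h1 j (by rw [Equiv.apply_symm_apply]; exact hw)
    rwa [Equiv.apply_symm_apply] at this
  refine ⟨key, ?_, ?_⟩
  · intro b hb w htw
    obtain ⟨b', hb', hp⟩ := hw w htw
    rw [← hp]; exact key b hb b' hb'
  · intro w htw w' htw'
    obtain ⟨b, hb, hp⟩ := hw w htw
    obtain ⟨b', hb', hp'⟩ := hw w' htw'
    rw [← hp, ← hp']; exact key b hb b' hb'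

variable [Fintype W] [Fintype V] [DecidableEq W] [DecidableEq V]

/-- the black vertices of value `a` -/
def SBl (s : B → ZMod 2) (a : ZMod 2) : Finset B := univ.filter fun b => s b = a

/-- the white vertices of value `a` -/
def SWh (t : W → ZMod 2) (a : ZMod 2) : Finset W := univ.filter fun w => t w = a

/-- the faces all of whose vertices have value `a` -/
def KK (s : B → ZMod 2) (t : W → ZMod 2) (a : ZMod 2) : Finset V :=
  univ.filter fun v => (∀ j b, M.c j b = v → s b = a) ∧ (∀ j w, M.cw j w = v → t w = a)

/-- matching edges with black end of value `a` and white end of value `a'` -/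
def EM (m : B → Fin 3) (s : B → ZMod 2) (t : W → ZMod 2) (a a' : ZMod 2) : Finset B :=
  univ.filter fun b => s b = a ∧ t (M.e (m b) b) = a'

omit [Fintype V] [DecidableEq V] in
theorem counts (m : B → Fin 3)
    (hm : Function.Bijective fun b => M.e (m b) b) (s : B → ZMod 2) (t : W → ZMod 2)
    (hst : Cl M m s t) (a : ZMod 2) :
    (SBl s a).card = (EM M m s t a a).card + (EM M m s t a (a + 1)).card ∧
    (SWh t a).card = (EM M m s t a a).card + (EM M m s t (a + 1) a).card ∧
    3 * (SBl s a).card = (inE M (SBl s a) (SWh t a)).card + (EM M m s t a (a + 1)).card ∧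
    3 * (SWh t a).card = (inE M (SBl s a) (SWh t a)).card + (EM M m s t (a + 1) a).card := by
  classical
  have hne : a + 1 ≠ a := z2_succ a
  refine ⟨?_, ?_, ?_, ?_⟩
  · rw [← Finset.card_union_of_disjoint]
    · congr 1
      ext b
      simp only [SBl, EM, mem_union, mem_filter, mem_univ, true_and]
      constructor
      · intro h
        by_cases ht : t (M.e (m b) b) = a
        · exact Or.inl ⟨h, ht⟩
        · exact Or.inr ⟨h, z2_ne ht hne⟩
      · rintro (h | h) <;> exact h.1
    · rw [Finset.disjoint_left]
      intro b h1 h2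
      simp only [EM, mem_filter, mem_univ, true_and] at h1 h2
      exact hne (h2.2.symm.trans h1.2)
  · rw [← Finset.card_union_of_disjoint]
    · symm
      apply Finset.card_bij (fun b _ => M.e (m b) b)
      · intro b hb
        simp only [EM, mem_union, mem_filter, mem_univ, true_and] at hb
        simp only [SWh, mem_filter, mem_univ, true_and]
        rcases hb with h | h <;> exact h.2
      · intro b _ b' _ h
        exact hm.1 h
      · intro w hw
        obtain ⟨b, rfl⟩ := hm.2 w
        simp only [SWh, mem_filter, mem_univ, true_and] at hw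
        refine ⟨b, ?_, rfl⟩
        simp only [EM, mem_union, mem_filter, mem_univ, true_and]
        by_cases hs : s b = a
        · exact Or.inl ⟨hs, hw⟩
        · exact Or.inr ⟨z2_ne hs hne, hw⟩
    · rw [Finset.disjoint_left]
      intro b h1 h2
      simp only [EM, mem_filter, mem_univ, true_and] at h1 h2
      exact hne (h2.1.symm.trans h1.1)
  · have h1 : ((SBl s a) ×ˢ (univ : Finset (Fin 3))).card = 3 * (SBl s a).card := by
      rw [Finset.card_product, Finset.card_univ, Fintype.card_fin, mul_comm]
    rw [← h1]
    have h2 : (SBl s a) ×ˢ (univ : Finset (Fin 3)) = inE M (SBl s a) (SWh t a) ∪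
        (EM M m s t a (a + 1)).image (fun b => (b, m b)) := by
      ext ⟨b, j⟩
      simp only [mem_product, mem_univ, and_true, mem_union, mem_inE, mem_image, SBl, SWh, EM,
        mem_filter, true_and, Prod.mk.injEq]
      constructor
      · intro h
        by_cases ht : t (M.e j b) = a
        · exact Or.inl ⟨h, ht⟩
        · right
          have hj : j = m b := by
            by_contra hj
            exact ht ((hst b j hj).symm.trans h)
          exact ⟨b, ⟨h, by rw [← hj]; exact z2_ne ht hne⟩, rfl, hj.symm⟩
      · rintro (h | ⟨b', h, rfl, -⟩)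
        · exact h.1
        · exact h.1
    rw [h2, Finset.card_union_of_disjoint, Finset.card_image_of_injective]
    · intro b b' h
      exact congrArg Prod.fst h
    · rw [Finset.disjoint_left]
      rintro ⟨b, j⟩ h1 h2
      simp only [mem_inE, mem_image, SBl, SWh, EM, mem_filter, mem_univ, true_and,
        Prod.mk.injEq] at h1 h2
      obtain ⟨b', h3, rfl, rfl⟩ := h2
      exact hne (h3.2.symm.trans h1.2)
  · have h1 : ((SWh t a) ×ˢ (univ : Finset (Fin 3))).card = 3 * (SWh t a).card := by
      rw [Finset.card_product, Finset.card_univ, Fintype.card_fin, mul_comm]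
    rw [← h1]
    have h2 : (SWh t a) ×ˢ (univ : Finset (Fin 3)) = (inE M (SBl s a) (SWh t a) ∪
        (EM M m s t (a + 1) a).image (fun b => (b, m b))).image
          (fun p => (M.e p.2 p.1, p.2)) := by
      ext ⟨w, j⟩
      simp only [mem_product, mem_univ, and_true, mem_union, mem_image, SBl, SWh, EM,
        mem_filter, true_and, Prod.mk.injEq, Prod.exists]
      constructor
      · intro h
        refine ⟨(M.e j).symm w, j, ?_, by simp, rfl⟩
        by_cases hs : s ((M.e j).symm w) = a
        · left
          rw [mem_inE]
          simp only [mem_filter, mem_univ, true_and, Equiv.apply_symm_apply]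
          exact ⟨hs, h⟩
        · right
          have hj : j = m ((M.e j).symm w) := by
            by_contra hj
            have := hst _ j hj
            rw [Equiv.apply_symm_apply, h] at this
            exact hs this
          refine ⟨(M.e j).symm w, ⟨z2_ne hs hne, ?_⟩, rfl, hj.symm⟩
          rw [← hj, Equiv.apply_symm_apply]; exact h
      · rintro ⟨b, j', h, rfl, rfl⟩
        rcases h with h | ⟨b', h, rfl, rfl⟩
        · rw [mem_inE] at h
          simpa using h.2
        · exact h.2
    rw [h2, Finset.card_image_of_injective, Finset.card_union_of_disjoint,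
      Finset.card_image_of_injective]
    · intro b b' h
      exact congrArg Prod.fst h
    · rw [Finset.disjoint_left]
      rintro ⟨b, j⟩ h1 h2
      simp only [mem_inE, mem_image, SBl, SWh, EM, mem_filter, mem_univ, true_and,
        Prod.mk.injEq] at h1 h2
      obtain ⟨b', h3, rfl, rfl⟩ := h2
      exact hne (h3.1.symm.trans h1.1)
    · rintro ⟨b, j⟩ ⟨b', j'⟩ h
      simp only [Prod.mk.injEq] at h
      obtain ⟨h1, rfl⟩ := h
      rw [(M.e j).injective h1]

/-- the corners at the matching edges along which the function changes -/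
def cor (m : B → Fin 3) (s : B → ZMod 2) (t : W → ZMod 2) : Finset (B × Fin 3) :=
  univ.filter fun p => p.1 ∈ cross M m s t ∧ p.2 ≠ m p.1

omit [Fintype W] [Fintype V] [DecidableEq W] [DecidableEq V] in
theorem card_cor (m : B → Fin 3) (s : B → ZMod 2) (t : W → ZMod 2) :
    (cor M m s t).card = 2 * (cross M m s t).card := by
  classical
  have h1 : (cross M m s t) ×ˢ (univ : Finset (Fin 3)) = cor M m s t ∪
      (cross M m s t).image (fun b => (b, m b)) := by
    ext ⟨b, j⟩
    simp only [cor, mem_product, mem_univ, and_true, mem_union, mem_filter, true_and, mem_image,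
      Prod.mk.injEq]
    constructor
    · intro h
      by_cases hj : j = m b
      · exact Or.inr ⟨b, h, rfl, hj.symm⟩
      · exact Or.inl ⟨h, hj⟩
    · rintro (h | ⟨b', h, rfl, -⟩)
      · exact h.1
      · exact h
  have h2 := congrArg Finset.card h1
  rw [Finset.card_product, Finset.card_univ, Fintype.card_fin, Finset.card_union_of_disjoint,
    Finset.card_image_of_injective] at h2
  · omega
  · intro b b' h
    exact congrArg Prod.fst h
  · rw [Finset.disjoint_left]
    rintro ⟨b, j⟩ h1 h2
    simp only [cor, mem_filter, mem_univ, true_and, mem_image, Prod.mk.injEq] at h1 h2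
    obtain ⟨b', h3, rfl, rfl⟩ := h2
    exact h1.2 rfl

omit [Fintype V] [DecidableEq W] in
/-- the corners at a face: an even number -/
theorem even_cor (m : B → Fin 3) (s : B → ZMod 2) (t : W → ZMod 2)
    (hst : Cl M m s t) (j0 : Fin 3) (v : V) (hv : ∃ b, M.c j0 b = v) :
    (((cor M m s t).filter fun p => M.c p.2 p.1 = v).card : ZMod 2) = 0 := by
  classical
  have h1 : ((cor M m s t).filter fun p => M.c p.2 p.1 = v) =
      (univ.filter fun b : B => M.c j0 b = v ∧ b ∈ cross M m s t ∧ m b ≠ j0).image
        (fun b => (b, j0)) := by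
    ext ⟨b, j⟩
    simp only [cor, mem_filter, mem_univ, true_and, mem_image, Prod.mk.injEq]
    constructor
    · rintro ⟨⟨h1, h2⟩, h3⟩
      obtain ⟨b', hb'⟩ := hv
      have hj : j = j0 := M.cls _ _ _ _ (h3.trans hb'.symm)
      exact ⟨b, ⟨by rw [← hj]; exact h3, h1, by rw [← hj]; exact Ne.symm h2⟩, rfl, hj.symm⟩
    · rintro ⟨b', ⟨h1, h2, h3⟩, rfl, rfl⟩
      exact ⟨⟨h2, Ne.symm h3⟩, h1⟩
  rw [h1, Finset.card_image_of_injective _ (fun b b' h => congrArg Prod.fst h)]
  have h2 : ((univ.filter fun b : B => M.c j0 b = v ∧ b ∈ cross M m s t ∧ m b ≠ j0).card : ZMod 2)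
      = ∑ b ∈ univ.filter (fun b : B => M.c j0 b = v),
        (t (M.e (j0 + 1) b) + t (M.e (j0 + 2) b)) := by
    rw [Finset.card_eq_sum_ones, Nat.cast_sum, ← Finset.filter_filter, Finset.sum_filter]
    apply Finset.sum_congr rfl
    intro b _
    have hcases : m b = j0 ∨ m b = j0 + 1 ∨ m b = j0 + 2 := fcase _ _
    rcases hcases with h | h | h
    · rw [if_neg (fun h' => h'.2 h)]
      rw [← hst b (j0 + 1) (by rw [h]; exact fne1 j0), ← hst b (j0 + 2) (by rw [h]; exact fne2 j0)]
      exact (z2 _).symm
    · rw [← hst b (j0 + 2) (by rw [h]; exact fne21 j0)]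
      by_cases hc : b ∈ cross M m s t
      · rw [if_pos ⟨hc, by rw [h]; exact fne1 j0⟩]
        rw [mem_cross, h] at hc
        revert hc
        generalize s b = x
        generalize t (M.e (j0 + 1) b) = y
        revert x y; decide
      · rw [if_neg (fun h' => hc h'.1)]
        rw [mem_cross, h, not_not] at hc
        rw [← hc]
        exact (z2 _).symm
    · rw [← hst b (j0 + 1) (by rw [h]; exact fne12 j0)]
      by_cases hc : b ∈ cross M m s t
      · rw [if_pos ⟨hc, by rw [h]; exact fne2 j0⟩]
        rw [mem_cross, h] at hc
        revert hc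
        generalize s b = x
        generalize t (M.e (j0 + 2) b) = y
        revert x y; decide
      · rw [if_neg (fun h' => hc h'.1)]
        rw [mem_cross, h, not_not] at hc
        rw [← hc]
        exact (z2 _).symm
  rw [h2, Finset.sum_add_distrib]
  have h3 : ∀ i : Fin 3, i ≠ j0 → (∑ b ∈ univ.filter (fun b : B => M.c j0 b = v), t (M.e i b)) =
      ∑ w ∈ univ.filter (fun w : W => M.cw j0 w = v), t w := by
    intro i hi
    apply Finset.sum_bij (fun b _ => M.e i b)
    · intro b hb
      simp only [mem_filter, mem_univ, true_and] at hb ⊢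
      rw [M.cw_e j0 i hi]; exact hb
    · intro b _ b' _ h
      exact (M.e i).injective h
    · intro w hw
      simp only [mem_filter, mem_univ, true_and] at hw
      refine ⟨(M.e i).symm w, ?_, by simp⟩
      simp only [mem_filter, mem_univ, true_and]
      rw [M.cw_symm j0 i hi]; exact hw
    · intro b _; rfl
  rw [h3 _ (fne1 j0), h3 _ (fne2 j0)]
  exact z2 _

omit [DecidableEq W] in
/-- A face with both values has two corners at changing matching edges. -/
theorem two_le_cor (m : B → Fin 3) (s : B → ZMod 2) (t : W → ZMod 2)
    (hst : Cl M m s t) (v : V) (hv : ∀ a, v ∉ KK M s t a) :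
    2 ≤ ((cor M m s t).filter fun p => M.c p.2 p.1 = v).card := by
  classical
  obtain ⟨j0, b0, hb0⟩ := M.surj v
  have h0 := even_cor M m s t hst j0 v ⟨b0, hb0⟩
  by_contra hlt
  have hcases : ((cor M m s t).filter fun p => M.c p.2 p.1 = v).card = 0 ∨
      ((cor M m s t).filter fun p => M.c p.2 p.1 = v).card = 1 := by omega
  rcases hcases with h1 | h1
  · rw [Finset.card_eq_zero] at h1
    apply hv (s b0)
    have hedge : ∀ b, M.c j0 b = v → ∀ i, i ≠ j0 → s b = t (M.e i b) := by
      intro b hb i hi
      by_cases him : i = m b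
      · by_contra hne
        have : (b, j0) ∈ (cor M m s t).filter fun p => M.c p.2 p.1 = v := by
          simp only [cor, mem_filter, mem_univ, true_and, mem_cross]
          exact ⟨⟨by rw [← him]; exact hne, by rw [← him]; exact Ne.symm hi⟩, hb⟩
        rw [h1] at this
        exact absurd this (Finset.notMem_empty _)
      · exact hst b i him
    have hcon : ∀ b, M.c j0 b = v → s b = s b0 := by
      intro b hb
      have hE := M.exact j0 b b0 (hb.trans hb0.symm)
      have hgen : ∀ x y, Relation.EqvGen (fun x y => M.e (j0 + 1) y = M.e (j0 + 2) x) x y →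
          M.c j0 x = v → s x = s y := by
        intro x y hxy
        induction hxy with
        | rel x y h =>
          intro hx
          have hy : M.c j0 y = v := (M.step _ _ _ h).trans hx
          rw [hedge x hx (j0 + 2) (fne2 _), hedge y hy (j0 + 1) (fne1 _), h]
        | refl x => intro _; rfl
        | symm x y h ih =>
          intro hy
          exact (ih ((M.c_of_eqvGen h).trans hy)).symm
        | trans x y z h1 h2 ih1 ih2 =>
          intro hx
          exact (ih1 hx).trans (ih2 ((M.c_of_eqvGen h1).symm.trans hx))
      exact hgen b b0 hE hb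
    simp only [KK, mem_filter, mem_univ, true_and]
    refine ⟨?_, ?_⟩
    · intro j b hb
      have hj : j = j0 := M.cls _ _ _ _ (hb.trans hb0.symm)
      subst hj
      exact hcon b hb
    · intro j w hw
      have hw' : M.c j ((M.e (j + 1)).symm w) = v := hw
      have hj : j = j0 := M.cls _ _ _ _ (hw'.trans hb0.symm)
      subst hj
      have h2 := hedge _ hw' (j + 1) (fne1 _)
      rw [Equiv.apply_symm_apply] at h2
      rw [← h2]
      exact hcon _ hw'
  · rw [h1] at h0
    exact absurd h0 (by decide)

omit [DecidableEq B] in
/-- **Step 1, last part.** `m` is a perfect matching, every matching edge is on a face (its owner)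
of class `f b` at its black end, different edges have different owners, and the faces at `b0`, other
than the owner of the matching edge at `b0`, own nothing. Then the complement of the matching is
connected. -/
theorem conn_of_owner (hM : M.Conn) (b0 : B) (m f : B → Fin 3) (hm : Function.Bijective fun b => M.e (m b) b)
    (hfm : ∀ b, f b ≠ m b) (hinj : Function.Injective fun b => M.c (f b) b)
    (hR : ∀ b, b ≠ b0 → ∀ j, M.c (f b) b ≠ M.c j b0)
    (s : B → ZMod 2) (t : W → ZMod 2) (hst : Cl M m s t) (b b' : B) : s b = s b' := by
  classical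
  by_contra hbb
  -- a minimal cut
  obtain ⟨k, hk⟩ : ∃ k, k = sInf {n | ∃ s t, Cl M m s t ∧ (∃ b b', s b ≠ s b') ∧
      (cross M m s t).card = n} := ⟨_, rfl⟩
  have hne : ({n | ∃ s t, Cl M m s t ∧ (∃ b b', s b ≠ s b') ∧
      (cross M m s t).card = n}).Nonempty := ⟨_, s, t, hst, ⟨b, b', hbb⟩, rfl⟩
  obtain ⟨s, t, hst, hnc, hcr⟩ := Nat.sInf_mem hne
  have hmin : ∀ s' t', Cl M m s' t' → (∃ b b', s' b ≠ s' b') →
      (cross M m s t).card ≤ (cross M m s' t').card := by
    intro s' t' h1 h2
    rw [hcr]
    exact Nat.sInf_le ⟨s', t', h1, h2, rfl⟩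
  clear hbb hk hcr hne
  -- both sides
  have hrank : ∀ a, (KK M s t a).card + ((SBl s a).card + (SWh t a).card) ≤
      (inE M (SBl s a) (SWh t a)).card + 1 := by
    intro a
    apply rank_ineq M hM
    · intro p q hpq
      have := conn_of_min M hM m hm s t hst hnc hmin a p q (by
        intro b hb j hj
        exact hpq b (by simp [SBl, hb]) j (by simp [SWh, hj]))
      simp only [SBl, SWh, mem_filter, mem_univ, true_and]
      exact this
    · intro j b hb
      simp only [KK, mem_filter, mem_univ, true_and] at hb
      simp only [SBl, mem_filter, mem_univ, true_and]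
      exact hb.1 j b rfl
    · intro j w hw
      simp only [KK, mem_filter, mem_univ, true_and] at hw
      simp only [SWh, mem_filter, mem_univ, true_and]
      exact hw.2 j w rfl
    · obtain ⟨b, b', hbb⟩ := hnc
      have : ∃ b, s b ≠ a := by
        by_contra hcon
        push Not at hcon
        exact hbb ((hcon b).trans (hcon b').symm)
      obtain ⟨b1, hb1⟩ := this
      refine ⟨M.c 0 b1, fun h => hb1 ?_⟩
      simp only [KK, mem_filter, mem_univ, true_and] at h
      exact h.1 0 b1 rfl
  -- the bound for the faces on one side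
  have hK : ∀ a, (KK M s t a).card ≤ (EM M m s t a a).card + 1 := by
    intro a
    obtain ⟨h1, h2, h3, h4⟩ := counts M m hm s t hst a
    have := hrank a
    omega
  -- the mixed faces
  let Mix : Finset V := univ.filter fun v => ∀ a, v ∉ KK M s t a
  have hpart : Fintype.card V = (KK M s t 0).card + (KK M s t 1).card + Mix.card := by
    rw [← Finset.card_univ, ← Finset.card_union_of_disjoint, ← Finset.card_union_of_disjoint]
    · congr 1
      ext v
      simp only [mem_univ, mem_union, true_iff, Mix, mem_filter, true_and]
      by_contra hcon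
      push Not at hcon
      obtain ⟨⟨h0, h1⟩, a, ha⟩ := hcon
      rcases z2_cases a with rfl | rfl
      · exact h0 ha
      · exact h1 ha
    · rw [Finset.disjoint_left]
      intro v h1 h2
      simp only [Mix, mem_filter, mem_univ, true_and] at h2
      rcases Finset.mem_union.1 h1 with h | h
      · exact h2 0 h
      · exact h2 1 h
    · rw [Finset.disjoint_left]
      intro v h1 h2
      obtain ⟨j, b, hb⟩ := M.surj v
      simp only [KK, mem_filter, mem_univ, true_and] at h1 h2
      have e1 := h1.1 j b hb
      have e2 := h2.1 j b hb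
      rw [e1] at e2
      exact absurd e2 (by decide)
  have hMixle : 2 * Mix.card ≤ 2 * (cross M m s t).card := by
    rw [← card_cor M m s t]
    have h1 : ∑ v ∈ Mix, ((cor M m s t).filter fun p => M.c p.2 p.1 = v).card ≤
        (cor M m s t).card := by
      rw [Finset.card_eq_sum_card_fiberwise (f := fun p : B × Fin 3 => M.c p.2 p.1)
        (t := (univ : Finset V)) (fun x _ => Finset.mem_univ _)]
      exact Finset.sum_le_sum_of_subset (Finset.subset_univ _)
    refine le_trans ?_ h1
    rw [mul_comm, ← smul_eq_mul, ← Finset.sum_const]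
    apply Finset.sum_le_sum
    intro v hv
    simp only [Mix, mem_filter, mem_univ, true_and] at hv
    exact two_le_cor M m s t hst v hv
  -- owners of changing edges are mixed
  have hown : (cross M m s t).image (fun b => M.c (f b) b) ⊆ Mix := by
    intro v hv
    obtain ⟨b, hb, rfl⟩ := Finset.mem_image.1 hv
    simp only [Mix, mem_filter, mem_univ, true_and]
    intro a ha
    rw [mem_cross] at hb
    simp only [KK, mem_filter, mem_univ, true_and] at ha
    apply hb
    rw [ha.1 (f b) b rfl, ha.2 (f b) (M.e (m b) b) (M.cw_e _ _ (hfm b).symm b)]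
  have hownc : ((cross M m s t).image (fun b => M.c (f b) b)).card = (cross M m s t).card :=
    Finset.card_image_of_injective _ hinj
  have hMix : (cross M m s t).image (fun b => M.c (f b) b) = Mix := by
    apply Finset.eq_of_subset_of_card_le hown
    rw [hownc]
    omega
  -- the side of `b0`
  let a := s b0
  have hin : ∀ v j, M.c j b0 = v → v ∉ Mix → v ∈ KK M s t a := by
    intro v j hv hmix
    simp only [Mix, mem_filter, mem_univ, true_and] at hmix
    push Not at hmix
    obtain ⟨a', ha'⟩ := hmix
    have : a = a' := by
      simp only [KK, mem_filter, mem_univ, true_and] at ha'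
      exact ha'.1 j b0 hv
    rw [this]; exact ha'
  have hroot : ∀ j, j ≠ f b0 → ∀ b, M.c (f b) b ≠ M.c j b0 := by
    intro j hj b h
    by_cases hb : b = b0
    · subst hb
      exact hj (M.cls _ _ _ _ h).symm
    · exact hR b hb j h
  have hrootK : ∀ j, j ≠ f b0 → M.c j b0 ∈ KK M s t a := by
    intro j hj
    apply hin _ j rfl
    rw [← hMix]
    intro h
    obtain ⟨b, -, hb⟩ := Finset.mem_image.1 h
    exact hroot j hj b hb
  have hsub : insert (M.c (f b0 + 1) b0) (insert (M.c (f b0 + 2) b0)
      ((EM M m s t a a).image (fun b => M.c (f b) b))) ⊆ KK M s t a := by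
    intro v hv
    rw [Finset.mem_insert, Finset.mem_insert] at hv
    rcases hv with rfl | rfl | hv
    · exact hrootK _ (fne1 _)
    · exact hrootK _ (fne2 _)
    · obtain ⟨b, hb, rfl⟩ := Finset.mem_image.1 hv
      simp only [EM, mem_filter, mem_univ, true_and] at hb
      have hnm : M.c (f b) b ∉ Mix := by
        rw [← hMix]
        intro h
        obtain ⟨b', hb', h'⟩ := Finset.mem_image.1 h
        have := hinj h'
        subst this
        rw [mem_cross] at hb'
        exact hb' (hb.1.trans hb.2.symm)
      simp only [Mix, mem_filter, mem_univ, true_and] at hnm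
      push Not at hnm
      obtain ⟨a', ha'⟩ := hnm
      have : a = a' := by
        simp only [KK, mem_filter, mem_univ, true_and] at ha'
        exact hb.1.symm.trans (ha'.1 _ b rfl)
      rw [this]; exact ha'
  have hcardle := Finset.card_le_card hsub
  rw [Finset.card_insert_of_notMem, Finset.card_insert_of_notMem,
    Finset.card_image_of_injective _ hinj] at hcardle
  · have := hK a
    omega
  · intro h
    obtain ⟨b, -, hb⟩ := Finset.mem_image.1 h
    exact hroot _ (fne2 _) b hb
  · intro h
    rw [Finset.mem_insert] at h
    rcases h with h | h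
    · exact fne12 _ (M.cls _ _ _ _ h)
    · obtain ⟨b, -, hb⟩ := Finset.mem_image.1 h
      exact hroot _ (fne1 _) b hb

end Vale.Agent.P039.Bn.H18
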