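import Vale.Agent.P039.Bn.Defs
import Mathlib.LinearAlgebra.Matrix.Rank
import Mathlib.Algebra.Field.ZMod

/-! The rank inequality: in a connected part of the map, the number of faces is at most
`E - V + 1`. -/

namespace Vale.Agent.P039.Bn.H18

open Finset

theorem z2 (a : ZMod 2) : a + a = 0 := by
  have : (2 : ZMod 2) = 0 := by decide
  rw [← two_mul, this, zero_mul]

theorem eq_of_z2 {a b : ZMod 2} (h : a + b = 0) : a = b := by
  revert a b; decide

theorem sum_shift1 {A : Type*} [AddCommMonoid A] (g : Fin 3 → A) :
    ∑ j, g (j + 1) = ∑ j, g j := Equiv.sum_comp (Equiv.addRight (1 : Fin 3)) g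

theorem sum_shift2 {A : Type*} [AddCommMonoid A] (g : Fin 3 → A) :
    ∑ j, g (j + 2) = ∑ j, g j := Equiv.sum_comp (Equiv.addRight (2 : Fin 3)) g

theorem finrank_ker_le_one {ι κ : Type*} [Fintype ι] [Fintype κ]
    (M : Matrix κ ι (ZMod 2)) (h : ∀ z : ι → ZMod 2, M.mulVec z = 0 → ∀ f g, z f = z g) :
    Module.finrank (ZMod 2) (LinearMap.ker M.mulVecLin) ≤ 1 := by
  classical
  have : LinearMap.ker M.mulVecLin ≤ Submodule.span (ZMod 2) {(fun _ => 1 : ι → ZMod 2)} := by
    intro z hz
    rw [LinearMap.mem_ker, Matrix.mulVecLin_apply] at hz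
    have hc := h z hz
    rw [Submodule.mem_span_singleton]
    by_cases hι : Nonempty ι
    · obtain ⟨i⟩ := hι
      refine ⟨z i, ?_⟩
      funext j
      simp [hc j i]
    · refine ⟨0, ?_⟩
      funext j
      exact absurd ⟨j⟩ hι
  calc _ ≤ Module.finrank (ZMod 2)
        (Submodule.span (ZMod 2) {(fun _ => 1 : ι → ZMod 2)}) := Submodule.finrank_mono this
    _ ≤ 1 := by
      have := finrank_span_le_card (R := ZMod 2) ({(fun _ => 1 : ι → ZMod 2)} : Set (ι → ZMod 2))
      simpa using this

theorem card_le_rank_add_one {ι κ : Type*} [Fintype ι] [Fintype κ]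
    (M : Matrix κ ι (ZMod 2)) (h : ∀ z : ι → ZMod 2, M.mulVec z = 0 → ∀ f g, z f = z g) :
    Fintype.card ι ≤ M.rank + 1 := by
  have h1 := LinearMap.finrank_range_add_finrank_ker M.mulVecLin
  have h2 := finrank_ker_le_one M h
  rw [Module.finrank_fintype_fun_eq_card] at h1
  unfold Matrix.rank
  omega

theorem card_eq_rank {ι κ : Type*} [Fintype ι] [Fintype κ]
    (M : Matrix κ ι (ZMod 2)) (h : ∀ z : ι → ZMod 2, M.mulVec z = 0 → z = 0) :
    M.rank = Fintype.card ι := by
  have h1 := LinearMap.finrank_range_add_finrank_ker M.mulVecLin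
  have h2 : LinearMap.ker M.mulVecLin = ⊥ := by
    rw [LinearMap.ker_eq_bot']
    intro z hz
    exact h z hz
  rw [Module.finrank_fintype_fun_eq_card, h2, finrank_bot] at h1
  unfold Matrix.rank
  omega

/-- Complex of length two: exactness defect. -/
theorem rank_le {ι κ μ : Type*} [Fintype ι] [Fintype κ] [Fintype μ]
    (D : Matrix κ ι (ZMod 2)) (F : Matrix κ μ (ZMod 2))
    (hD : ∀ z : ι → ZMod 2, D.mulVec z = 0 → ∀ f g, z f = z g)
    (hF : ∀ z : μ → ZMod 2, F.mulVec z = 0 → z = 0)
    (h0 : D.transpose * F = 0) :
    Fintype.card μ + Fintype.card ι ≤ Fintype.card κ + 1 := by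
  classical
  have h1 := card_le_rank_add_one D hD
  rw [← Matrix.rank_transpose] at h1
  have h2 := card_eq_rank F hF
  have h3 := LinearMap.finrank_range_add_finrank_ker D.transpose.mulVecLin
  rw [Module.finrank_fintype_fun_eq_card] at h3
  have h4 : LinearMap.range F.mulVecLin ≤ LinearMap.ker D.transpose.mulVecLin := by
    rintro _ ⟨x, rfl⟩
    rw [LinearMap.mem_ker]
    change D.transpose.mulVec (F.mulVec x) = 0
    rw [Matrix.mulVec_mulVec, h0, Matrix.zero_mulVec]
  have h5 := Submodule.finrank_mono h4
  unfold Matrix.rank at h1 h2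
  omega

variable {B W V : Type} (M : PMap B W V)

theorem const_of_conn (hM : M.Conn) (a : V → ZMod 2)
    (h : ∀ b j, a (M.c (j + 1) b) = a (M.c (j + 2) b)) (v v' : V) : a v = a v' := by
  have h1 : ∀ b j k, a (M.c j b) = a (M.c k b) := by
    intro b
    have e0 := h b 0
    have e1 := h b 1
    have e2 := h b 2
    have : ∀ j : Fin 3, a (M.c j b) = a (M.c 0 b) := by
      intro j
      fin_cases j
      · rfl
      · exact e2.symm
      · exact e1
    intro j k
    rw [this j, this k]
  have h2 : ∀ b b', ∀ j k, a (M.c j b) = a (M.c k b') := by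
    intro b b'
    have := hM b b'
    induction this with
    | rel x y h => obtain ⟨i, hi⟩ := h; intro j k; rw [h1 x j i, hi, h1 y i k]
    | refl x => intro j k; exact h1 x j k
    | symm x y _ ih => intro j k; exact (ih k j).symm
    | trans x y z _ _ ih1 ih2 => intro j k; exact (ih1 j 0).trans (ih2 0 k)
  obtain ⟨j, b, rfl⟩ := M.surj v
  obtain ⟨k, b', rfl⟩ := M.surj v'
  exact h2 _ _ _ _

variable [Fintype B] [Fintype W] [Fintype V] [DecidableEq B] [DecidableEq W] [DecidableEq V]

/-- the edges inside the set of vertices `SB ∪ SW` -/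
def inE (SB : Finset B) (SW : Finset W) : Finset (B × Fin 3) :=
  univ.filter fun p => p.1 ∈ SB ∧ M.e p.2 p.1 ∈ SW

omit [Fintype W] [Fintype V] [DecidableEq V] in
theorem mem_inE {SB : Finset B} {SW : Finset W} {b : B} {j : Fin 3} :
    (b, j) ∈ inE M SB SW ↔ b ∈ SB ∧ M.e j b ∈ SW := by simp [inE]

omit [Fintype W] [Fintype V] in
/-- Rank inequality. -/
theorem rank_ineq (hM : M.Conn) (SB : Finset B) (SW : Finset W)
    (hconn : ∀ (p : B → ZMod 2) (q : W → ZMod 2),
      (∀ b ∈ SB, ∀ j, M.e j b ∈ SW → p b = q (M.e j b)) →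
      (∀ b ∈ SB, ∀ b' ∈ SB, p b = p b') ∧ (∀ b ∈ SB, ∀ w ∈ SW, p b = q w) ∧
        (∀ w ∈ SW, ∀ w' ∈ SW, q w = q w'))
    (K : Finset V) (hK : ∀ j b, M.c j b ∈ K → b ∈ SB) (hK' : ∀ j w, M.cw j w ∈ K → w ∈ SW)
    (hne : ∃ v, v ∉ K) :
    K.card + (SB.card + SW.card) ≤ (inE M SB SW).card + 1 := by
  classical
  let D : Matrix {p // p ∈ inE M SB SW} ({b // b ∈ SB} ⊕ {w // w ∈ SW}) (ZMod 2) :=
    fun p x => Sum.elim (fun b : {b // b ∈ SB} => if (b : B) = p.1.1 then 1 else 0)
      (fun w : {w // w ∈ SW} => if (w : W) = M.e p.1.2 p.1.1 then 1 else 0) x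
  let F : Matrix {p // p ∈ inE M SB SW} {v // v ∈ K} (ZMod 2) :=
    fun p v => (if (v : V) = M.c (p.1.2 + 1) p.1.1 then 1 else 0) +
      (if (v : V) = M.c (p.1.2 + 2) p.1.1 then 1 else 0)
  have key := rank_le D F ?_ ?_ ?_
  · simpa using key
  · -- kernel of D
    intro z hz
    let p : B → ZMod 2 := fun b => if h : b ∈ SB then z (Sum.inl ⟨b, h⟩) else 0
    let q : W → ZMod 2 := fun w => if h : w ∈ SW then z (Sum.inr ⟨w, h⟩) else 0
    have hpq : ∀ b ∈ SB, ∀ j, M.e j b ∈ SW → p b = q (M.e j b) := by
      intro b hb j hj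
      have h1 := congrFun hz ⟨(b, j), (mem_inE M).2 ⟨hb, hj⟩⟩
      simp only [Matrix.mulVec, dotProduct, Fintype.sum_sum_type, D, Sum.elim_inl, Sum.elim_inr,
        Pi.zero_apply, ite_mul, one_mul, zero_mul] at h1
      rw [Finset.sum_eq_single (⟨b, hb⟩ : {b // b ∈ SB}),
        Finset.sum_eq_single (⟨M.e j b, hj⟩ : {w // w ∈ SW})] at h1
      · simp only [if_true] at h1
        have := eq_of_z2 h1
        simp only [p, q, hb, hj, dif_pos]
        exact this
      · intro w _ hw
        rw [if_neg]
        intro h; exact hw (Subtype.ext h)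
      · intro h; exact absurd (mem_univ _) h
      · intro w _ hw
        rw [if_neg]
        intro h; exact hw (Subtype.ext h)
      · intro h; exact absurd (mem_univ _) h
    obtain ⟨h1, h2, h3⟩ := hconn p q hpq
    have hp : ∀ b : {b // b ∈ SB}, z (Sum.inl b) = p b := by
      intro b; simp only [p, b.2, dif_pos]
    have hq : ∀ w : {w // w ∈ SW}, z (Sum.inr w) = q w := by
      intro w; simp only [q, w.2, dif_pos]
    rintro (b | w) (b' | w')
    · rw [hp, hp]; exact h1 _ b.2 _ b'.2
    · rw [hp, hq]; exact h2 _ b.2 _ w'.2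
    · rw [hp, hq]; exact (h2 _ b'.2 _ w.2).symm
    · rw [hq, hq]; exact h3 _ w.2 _ w'.2
  · -- kernel of F
    intro z hz
    let a : V → ZMod 2 := fun v => if h : v ∈ K then z ⟨v, h⟩ else 0
    have ha : ∀ v, v ∉ K → a v = 0 := fun v hv => by simp only [a, hv, dif_neg, not_false_eq_true]
    have h1 : ∀ b j, a (M.c (j + 1) b) = a (M.c (j + 2) b) := by
      intro b j
      by_cases hb : b ∈ SB
      · by_cases hj : M.e j b ∈ SW
        · have h1 := congrFun hz ⟨(b, j), (mem_inE M).2 ⟨hb, hj⟩⟩
          simp only [Matrix.mulVec, dotProduct, F, Pi.zero_apply, add_mul, ite_mul, one_mul,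
            zero_mul, Finset.sum_add_distrib] at h1
          have h2 : ∀ u : V, (∑ x : {v // v ∈ K}, if (x : V) = u then z x else 0) = a u := by
            intro u
            by_cases hu : u ∈ K
            · rw [Finset.sum_eq_single (⟨u, hu⟩ : {v // v ∈ K})]
              · simp only [if_true, a, hu, dif_pos]
              · intro w _ hw
                rw [if_neg]
                intro h; exact hw (Subtype.ext h)
              · intro h; exact absurd (mem_univ _) h
            · rw [ha u hu]
              apply Finset.sum_eq_zero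
              intro x _
              rw [if_neg]
              intro h; exact hu (h ▸ x.2)
          rw [h2, h2] at h1
          exact eq_of_z2 h1
        · have e1 : M.c (j + 1) b ∉ K := by
            intro h
            rw [← M.cw_e (j + 1) j (fne1 j).symm b] at h
            exact hj (hK' _ _ h)
          have e2 : M.c (j + 2) b ∉ K := by
            intro h
            rw [← M.cw_e (j + 2) j (fne2 j).symm b] at h
            exact hj (hK' _ _ h)
          rw [ha _ e1, ha _ e2]
      · rw [ha _ (fun h => hb (hK _ _ h)), ha _ (fun h => hb (hK _ _ h))]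
    obtain ⟨v, hv⟩ := hne
    funext x
    have h2 : a x = 0 := by rw [const_of_conn M hM a h1 x v, ha v hv]
    have h3 : a x = z x := by simp only [a, x.2, dif_pos]
    rw [Pi.zero_apply, ← h3, h2]
  · -- composition
    ext x v
    have hv := v.2
    rw [Matrix.mul_apply, Matrix.zero_apply]
    simp only [Matrix.transpose_apply]
    -- rewrite as a sum over all pairs
    have hsum : ∀ g : B × Fin 3 → ZMod 2, (∑ p : {p // p ∈ inE M SB SW}, g p.1) =
        ∑ p : B × Fin 3, if p ∈ inE M SB SW then g p else 0 := by
      intro g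
      rw [← Finset.sum_filter, Finset.filter_mem_eq_inter, Finset.univ_inter,
        ← Finset.sum_coe_sort (inE M SB SW) g]
    rcases x with b | w
    · have := hsum (fun p => (if (b : B) = p.1 then 1 else 0) *
        ((if (v : V) = M.c (p.2 + 1) p.1 then 1 else 0) +
          (if (v : V) = M.c (p.2 + 2) p.1 then 1 else 0)))
      refine Eq.trans ?_ (this.trans ?_)
      · rfl
      · have h1 : ∀ p : B × Fin 3, (if p ∈ inE M SB SW then (if (b : B) = p.1 then (1 : ZMod 2) else 0) *
          ((if (v : V) = M.c (p.2 + 1) p.1 then 1 else 0) +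
          (if (v : V) = M.c (p.2 + 2) p.1 then 1 else 0)) else 0) =
            (if (b : B) = p.1 then (1 : ZMod 2) else 0) *
          ((if (v : V) = M.c (p.2 + 1) p.1 then 1 else 0) +
          (if (v : V) = M.c (p.2 + 2) p.1 then 1 else 0)) := by
          rintro ⟨b', j⟩
          by_cases hin : (b', j) ∈ inE M SB SW
          · rw [if_pos hin]
          · rw [if_neg hin]
            by_cases hb : (b : B) = b'
            · subst hb
              have hj : M.e j b ∉ SW := fun h => hin ((mem_inE M).2 ⟨b.2, h⟩)
              have e1 : (v : V) ≠ M.c (j + 1) b := by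
                intro h
                rw [← M.cw_e (j + 1) j (fne1 j).symm (b : B)] at h
                rw [h] at hv
                exact hj (hK' _ _ hv)
              have e2 : (v : V) ≠ M.c (j + 2) b := by
                intro h
                rw [← M.cw_e (j + 2) j (fne2 j).symm (b : B)] at h
                rw [h] at hv
                exact hj (hK' _ _ hv)
              rw [if_neg e1, if_neg e2, add_zero, mul_zero]
            · rw [if_neg hb, zero_mul]
        simp only [h1]
        rw [Fintype.sum_prod_type]
        rw [Finset.sum_eq_single (b : B)]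
        · simp only [if_true, one_mul, Finset.sum_add_distrib]
          rw [sum_shift1 (fun j => if (v : V) = M.c j b then (1 : ZMod 2) else 0),
            sum_shift2 (fun j => if (v : V) = M.c j b then (1 : ZMod 2) else 0)]
          exact z2 _
        · intro b' _ hb'
          apply Finset.sum_eq_zero
          intro j _
          rw [if_neg (Ne.symm hb'), zero_mul]
        · intro h; exact absurd (mem_univ _) h
    · have := hsum (fun p => (if (w : W) = M.e p.2 p.1 then 1 else 0) *
        ((if (v : V) = M.c (p.2 + 1) p.1 then 1 else 0) +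
          (if (v : V) = M.c (p.2 + 2) p.1 then 1 else 0)))
      refine Eq.trans ?_ (this.trans ?_)
      · rfl
      · have h1 : ∀ p : B × Fin 3, (if p ∈ inE M SB SW then (if (w : W) = M.e p.2 p.1 then (1 : ZMod 2) else 0) *
          ((if (v : V) = M.c (p.2 + 1) p.1 then 1 else 0) +
          (if (v : V) = M.c (p.2 + 2) p.1 then 1 else 0)) else 0) =
            (if (w : W) = M.e p.2 p.1 then (1 : ZMod 2) else 0) *
          ((if (v : V) = M.cw (p.2 + 1) w then 1 else 0) +
          (if (v : V) = M.cw (p.2 + 2) w then 1 else 0)) := by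
          rintro ⟨b', j⟩
          by_cases hw : (w : W) = M.e j b'
          · have c1 : M.cw (j + 1) w = M.c (j + 1) b' := by
              rw [hw]; exact M.cw_e (j + 1) j (fne1 j).symm b'
            have c2 : M.cw (j + 2) w = M.c (j + 2) b' := by
              rw [hw]; exact M.cw_e (j + 2) j (fne2 j).symm b'
            by_cases hin : (b', j) ∈ inE M SB SW
            · rw [if_pos hin, c1, c2]
            · rw [if_neg hin]
              have hb : b' ∉ SB := fun h => hin ((mem_inE M).2 ⟨h, hw ▸ w.2⟩)
              have e1 : (v : V) ≠ M.cw (j + 1) w := by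
                intro h
                rw [c1] at h
                rw [h] at hv
                exact hb (hK _ _ hv)
              have e2 : (v : V) ≠ M.cw (j + 2) w := by
                intro h
                rw [c2] at h
                rw [h] at hv
                exact hb (hK _ _ hv)
              simp only [if_neg e1, if_neg e2, add_zero, mul_zero]
          · simp only [if_neg hw, zero_mul, ite_self]
        simp only [h1]
        rw [Fintype.sum_prod_type_right]
        have h2 : ∀ j : Fin 3, (∑ b' : B, (if (w : W) = M.e j b' then (1 : ZMod 2) else 0) *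
            ((if (v : V) = M.cw (j + 1) w then 1 else 0) +
            (if (v : V) = M.cw (j + 2) w then 1 else 0))) =
            (if (v : V) = M.cw (j + 1) w then 1 else 0) +
            (if (v : V) = M.cw (j + 2) w then 1 else 0) := by
          intro j
          rw [Finset.sum_eq_single ((M.e j).symm w)]
          · rw [if_pos (by simp), one_mul]
          · intro b' _ hb'
            rw [if_neg, zero_mul]
            intro h
            exact hb' (by rw [h, Equiv.symm_apply_apply])
          · intro h; exact absurd (mem_univ _) h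
        simp only [h2, Finset.sum_add_distrib]
        rw [sum_shift1 (fun j => if (v : V) = M.cw j w then (1 : ZMod 2) else 0),
          sum_shift2 (fun j => if (v : V) = M.cw j w then (1 : ZMod 2) else 0)]
        exact z2 _

end Vale.Agent.P039.Bn.H18
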